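import Vale.Agent.P174.Fld.Cor

/-!
# Howie's theorem over an arbitrary field, with its relative forms and reductions.
-/

universe u

open Vale.Agent.P174 Vale.Agent.P174.Rel Vale.Agent.P174.Rel.Fld

/-- Over a field `K`, a system is nonsingular when its exponent-sum rows, mapped to `K`, are
independent, and a group is locally indicable when every nontrivial finitely generated subgroup has
a nontrivial homomorphism to the additive group of `K`.
First part, for every field `K`: nonsingular systems over free products of groups locally indicable
over `K` are solvable; solvability of nonsingular systems passes from the free powers of the kernel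
of `G → Q` to `G` when `Q` is locally indicable over `K`; goodness of a class `S` passes to the
class of groups whose finitely generated subgroups lie in `S` or have a nontrivial homomorphism to
`K`; and solvability reduces to finitely generated groups with no nontrivial homomorphism to `K`.
Second part, for `K` the integers modulo a prime `p`: locally indicable groups and finite `p`-groups
are locally indicable over `K`, and a group with a locally indicable normal subgroup and a finite
`p`-group as quotient has all systems nonsingular modulo `p` solvable.
Third part: Howie's conjecture follows from the solvability, for each prime `p`, of the systems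
nonsingular modulo `p` over finitely generated groups with no nontrivial homomorphism to the
integers modulo `p`. -/
theorem Vale.Agent.Results.P174.AFieldHowie.result :
    (∀ (K : Type) [Field K],
      (∀ (V : Type u) (A : V → Type u) [∀ v, Group (A v)], (∀ v, LocIndK K (A v)) →
        AllSolvK K (Monoid.CoprodI A)) ∧
      (∀ (G Q : Type u) [Group G] [Group Q] (π : G →* Q), LocIndK K Q →
        (∀ C : Type u, AllSolvK K (Monoid.CoprodI fun _ : C => π.ker)) → AllSolvK K G) ∧
      (∀ S : (H : Type u) → [Group H] → Prop,
        (∀ (H H' : Type u) [Group H] [Group H'], (H ≃* H') → S H → S H') →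
        GoodClassK K S → GoodClassK K (LocalExtK K S)) ∧
      ((∀ (G : Type u) [Group G], Group.FG G → (∀ φ : G →* Multiplicative K, φ = 1) →
        AllSolvK K G) → ∀ (G : Type u) [Group G], AllSolvK K G)) ∧
    (∀ (p : ℕ) [Fact p.Prime],
      (∀ (G : Type u) [Group G], LocInd G → LocIndK (ZMod p) G) ∧
      (∀ (P : Type u) [Group P] [Finite P], IsPGroup p P → LocIndK (ZMod p) P) ∧
      (∀ (G Q : Type u) [Group G] [Group Q] [Finite Q], IsPGroup p Q → ∀ π : G →* Q,
        LocInd π.ker → AllSolvK (ZMod p) G)) ∧
    ((∀ (p : ℕ) [Fact p.Prime] (G : Type u) [Group G], Group.FG G →
        (∀ φ : G →* Multiplicative (ZMod p), φ = 1) → AllSolvK (ZMod p) G) →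
      ∀ (G : Type u) [Group G], AllSolv G) :=
  ⟨fun K _ => ⟨fun V A _ hA => allSolvK_locIndK V A hA,
      fun _ _ _ _ π hQ h => allSolvK_of_extension π hQ h,
      fun _ hiso hS => goodClassK_localExtK hiso hS,
      fun h G _ => allSolvK_of_b1 h G⟩,
    fun p _ => ⟨fun _ _ h => locIndK_of_locInd h,
      fun _ _ _ hP => locIndK_of_isPGroup hP,
      fun _ _ _ _ _ hQ π hN => allSolvK_of_locInd_by_pgroup hQ π hN⟩,
    fun h G _ => allSolv_of_primes h G⟩
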