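import Vale.Agent.P174.Rel.Main

/-!
# The relative Howie theorem.
-/

universe u

open Vale.Agent.P174 Vale.Agent.P174.Rel

/-- Four statements, proved together by an induction on the total weight of a witness.
First: if a class `S` of groups, closed under isomorphism, is good (every free product of members
of `S` satisfies Howie's conjecture) then so is the class `LocalExt S` of the groups each of whose
finitely generated subgroups lies in `S` or has a nontrivial homomorphism to the integers.
Second: if all free powers of the kernel of a homomorphism `G → Q` to a locally indicable group
satisfy Howie's conjecture, then so does `G`.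
Third: if Howie's conjecture holds for all finitely generated groups whose homomorphisms to the
integers are all trivial, then it holds for all groups.
Fourth: free products of locally indicable groups satisfy Howie's conjecture. -/
theorem Vale.Agent.Results.P174.ARelativeHowie.result :
    (∀ S : (H : Type u) → [Group H] → Prop,
      (∀ (H H' : Type u) [Group H] [Group H'], (H ≃* H') → S H → S H') →
      GoodClass S → GoodClass (LocalExt S) ∧ ∀ (G : Type u) [Group G], LocalExt S G → AllSolv G) ∧
    (∀ (G Q : Type u) [Group G] [Group Q] (π : G →* Q), LocInd Q →
      (∀ C : Type u, AllSolv (Monoid.CoprodI fun _ : C => π.ker)) → AllSolv G) ∧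
    ((∀ (G : Type u) [Group G], Group.FG G → (∀ φ : G →* Multiplicative ℤ, φ = 1) → AllSolv G) →
      ∀ (G : Type u) [Group G], AllSolv G) ∧
    (∀ (V : Type u) (A : V → Type u) [∀ v, Group (A v)], (∀ v, LocInd (A v)) →
      AllSolv (Monoid.CoprodI A)) :=
  ⟨fun _ hiso hS => ⟨goodClass_localExt hiso hS, allSolv_of_localExt hiso hS⟩,
    fun _ _ _ _ π hQ h => allSolv_of_extension π hQ h,
    fun h G _ => allSolv_of_b1 h G,
    fun V A _ hA => allSolv_locInd V A hA⟩
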