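import Vale.Agent.P174.FoxCalc

/-!
# A criterion for solvability of systems over `G` in terms of a quotient `Q` of `G`.
-/

universe u

open Vale.Agent.P174

/-- Let `π : G → Q` be a homomorphism to an arbitrary group `Q`, whose kernel has all free powers
satisfying Howie's conjecture. Right Fox derivatives with values in the rational group algebra
exist at every point `t` of `Q^n`. If `t` solves the image in `Q` of a system `w`, then `w` is
solvable over `G` in each of these cases: the Fox matrix of `w` at `t` acts injectively on column
vectors over the group algebra; or `Q` has Strebel's property over `ℚ` and `w` is nonsingular;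
or the group algebra has no zero divisors and `w` is a single equation with a nonzero exponent
sum in some unknown. -/
theorem Vale.Agent.Results.P174.FoxCriterion.result {G Q : Type u} [Group G] [Group Q]
    (π : G →* Q) (hB : ∀ C : Type u, AllSolv (Monoid.CoprodI (fun _ : C => π.ker))) :
    (∀ (n : ℕ) (t : Fin n → Q), ∃ D, IsFoxDeriv π t D) ∧
    (∀ (n m : ℕ) (t : Fin n → Q) (w : Fin m → Star G n)
        (D : Star G n → Fin n → MonoidAlgebra ℚ Q), (∀ r, theta π t (w r) = 1) →
        IsFoxDeriv π t D →
        Function.Injective
          (fun (c : Fin m → MonoidAlgebra ℚ Q) (j : Fin n) => ∑ r, D (w r) j * c r) →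
        Solvable w) ∧
    (StrebelProp Q → ∀ (n m : ℕ) (t : Fin n → Q) (w : Fin m → Star G n),
        (∀ r, theta π t (w r) = 1) → Nonsingular w → Solvable w) ∧
    (NoZeroDivisors (MonoidAlgebra ℚ Q) → ∀ (n : ℕ) (t : Fin n → Q) (w : Star G n) (j : Fin n),
        theta π t w = 1 → expoVec w j ≠ 0 → Solvable (fun _ : Fin 1 => w)) :=
  ⟨fun _ t => exists_foxDeriv π t,
    fun _ _ t w _ hθ hD hinj => solvable_of_fox π t w hθ hB hD hinj,
    fun hS _ _ t w hθ hns => solvable_of_strebel π hS t w hθ hns hB,
    fun _ _ t w j hθ hexp => solvable_of_noZeroDivisors π t w j hθ hexp hB⟩
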