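import Vale.Agent.P174.Magnus

/-!
# Howie's conjecture passes from the free powers of `N` to any extension of `N` by a free group.
-/

universe u

open Vale.Agent.P174

/-- Let `π : G → F(X)` be a homomorphism to a free group with kernel `N`. If Howie's conjecture
holds over every free product of copies of `N`, then it holds over `G`. -/
theorem Vale.Agent.Results.P174.FreeExtension.result {G X : Type u} [Group G]
    (π : G →* FreeGroup X)
    (h : ∀ C : Type u, AllSolv (Monoid.CoprodI (fun _ : C => π.ker))) : AllSolv G := by
  let π' : G →* (magFil X).U := mag.comp π
  have hker : π'.ker = π.ker := by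
    ext g
    simp only [MonoidHom.mem_ker, π', MonoidHom.comp_apply]
    exact (injective_iff_map_eq_one' _).1 mag_injective _
  have hB : AllSolv (BaseG π') := by
    unfold BaseG
    rw [hker]
    exact h _
  exact allSolv_of_unipotent π' hB
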