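import Vale.Agent.P174.Tower

/-!
# Goodness of a class of groups passes to its extensions by free groups, so it can be iterated.
-/

universe u

open Vale.Agent.P174

/-- Call a class `S` of groups good when every free product of members of `S` satisfies Howie's
conjecture. If `S` is good, then the class `FreeExt S` of the groups `G` having a normal subgroup
`N` in `S` with `G / N` free is good as well, and each such `G` satisfies Howie's conjecture. -/
theorem Vale.Agent.Results.P174.FreeTower.result (S : (H : Type u) → [Group H] → Prop)
    (h : GoodClass S) :
    GoodClass (FreeExt S) ∧ ∀ (G : Type u) [Group G], FreeExt S G → AllSolv G :=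
  ⟨goodClass_freeExt S h, fun G _ hG => allSolv_of_freeExt S h G hG⟩
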