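import Vale.Agent.P174.Rep

/-!
# Howie's conjecture passes from the free powers of the kernel through unipotent representations.
-/

universe u

open Vale.Agent.P174

/-- Let `ρ` be a representation of `G` on a rational vector space `V` with an exhaustive increasing
filtration `F` with `F 0 = 0`, acting trivially on the successive quotients. If Howie's conjecture
holds over every free product of copies of the kernel of `ρ`, then it holds over `G`. -/
theorem Vale.Agent.Results.P174.UnipotentRep.result {G V : Type u} [Group G]
    [AddCommGroup V] [Module ℚ V] (F : ℕ → Submodule ℚ V) (hF0 : F 0 = ⊥) (hmono : Monotone F)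
    (hex : ∀ v, ∃ k, v ∈ F k) (ρ : G →* (V ≃ₗ[ℚ] V))
    (hρ : ∀ g k v, v ∈ F (k + 1) → ρ g v - v ∈ F k)
    (h : ∀ C : Type u, AllSolv (Monoid.CoprodI (fun _ : C => ρ.ker))) : AllSolv G :=
  allSolv_of_rep F hF0 hmono hex ρ hρ h
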